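import Mathlib
import Vale.Agent.Lib.Common.PolyTime.Compile
import Vale.Agent.Lib.P337.Defs
import Vale.Agent.Lib.P337.Cx.Class

/-!
P337: polynomial time functions on bit strings.
-/

namespace Vale.Agent.P337

open Vale.Agent.Lib.Common.PolyTime

theorem polyTime_of_PT {f : List Bool → List Bool} (hf : PT f) : PolyTime f := by
  obtain ⟨F, hF, hF'⟩ := hf
  exact PolyOn.toTM2 (Γ₀ := Bool) (Γ₁ := Bool) TEnc.enc TEnc.enc TEnc.inj id id f hF hF'

/-- one step of reading a pair of words: read two equal bits -/
def unpairStep (s : List Bool × List Bool) : List Bool × List Bool :=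
  List.casesOn (motive := fun _ => List Bool × List Bool) s.2 s (fun b r =>
    List.casesOn (motive := fun _ => List Bool × List Bool) r s (fun c r' =>
      bif b == c then (b :: s.1, r') else s))

theorem unpairStep_mark (acc y : List Bool) :
    unpairStep (acc, true :: false :: y) = (acc, true :: false :: y) := rfl

theorem unpairStep_two (acc r : List Bool) (b : Bool) :
    unpairStep (acc, b :: b :: r) = (b :: acc, r) := by
  cases b <;> rfl

theorem sz_unpairStep_le (s : List Bool × List Bool) : sz (unpairStep s) ≤ sz s := by
  obtain ⟨acc, r⟩ := s
  match r with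
  | [] => exact le_rfl
  | [b] => exact le_rfl
  | b :: c :: r =>
    by_cases h : b = c
    · subst h
      rw [unpairStep_two, sz_pair, sz_pair, sz_cons, sz_cons, sz_cons]
      omega
    · have : (b == c) = false := beq_false_of_ne h
      have h2 : unpairStep (acc, b :: c :: r) = (acc, b :: c :: r) := by
        show (bif b == c then (b :: acc, r) else (acc, b :: c :: r)) = _
        rw [this]; rfl
      rw [h2]

theorem sz_unpairStep_iterate_le (i : ℕ) (s : List Bool × List Bool) :
    sz (unpairStep^[i] s) ≤ sz s := by
  induction i with
  | zero => exact le_rfl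
  | succ i ih =>
    rw [Function.iterate_succ_apply']
    exact (sz_unpairStep_le _).trans ih

theorem unpairStep_iterate (y : List Bool) : ∀ (x acc : List Bool) (k : ℕ), x.length ≤ k →
    unpairStep^[k] (acc, (x.flatMap fun b => [b, b]) ++ true :: false :: y) =
      (x.reverse ++ acc, true :: false :: y) := by
  intro x
  induction x with
  | nil =>
    intro acc k _
    exact Function.iterate_fixed (unpairStep_mark acc y) k
  | cons b x ih =>
    intro acc k hk
    obtain ⟨k, rfl⟩ : ∃ k', k = k' + 1 := ⟨k - 1, by simp at hk; omega⟩
    rw [Function.iterate_succ_apply]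
    have h1 : ((b :: x).flatMap fun b => [b, b]) ++ true :: false :: y =
        b :: b :: ((x.flatMap fun b => [b, b]) ++ true :: false :: y) := by
      simp
    rw [h1, unpairStep_two, ih (b :: acc) k (by simpa using hk)]
    simp

theorem PT_unpairStep : PT (fun x : List Bool × (List Bool × List Bool) => unpairStep x.2) := by
  unfold unpairStep
  fun_prop

/-- a polynomial time inverse of the pairing of words -/
theorem exists_unpair : ∃ u : List Bool → List Bool × List Bool, PT u ∧
    ∀ x y, u (pair x y) = (x, y) := by
  have h1 : PT (fun w : List Bool => unpairStep^[w.length] (([] : List Bool), w)) := by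
    refine PT.iterate (f := fun (_ : List Bool) s => unpairStep s) PT_unpairStep
      (PT.length PT.id) (PT.pair (PT.const []) PT.id) (Polynomial.X + Polynomial.C 2) ?_
    intro w i _
    refine (sz_unpairStep_iterate_le i _).trans ?_
    rw [sz_pair, sz_nil]
    simp
    omega
  refine ⟨fun w => ((unpairStep^[w.length] (([] : List Bool), w)).1.reverse,
    (unpairStep^[w.length] (([] : List Bool), w)).2.tail.tail), ?_, ?_⟩
  · exact PT.pair (PT.reverse (PT.fst h1)) (PT.tail (PT.tail (PT.snd h1)))
  · intro x y
    have h2 : x.length ≤ (pair x y).length := by
      unfold pair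
      rw [List.length_append, List.length_flatMap]
      simp
      omega
    have h3 := unpairStep_iterate y x [] (pair x y).length h2
    have h4 : unpairStep^[(pair x y).length] (([] : List Bool), pair x y)
        = (x.reverse ++ [], true :: false :: y) := h3
    show ((unpairStep^[(pair x y).length] (([] : List Bool), pair x y)).1.reverse,
      (unpairStep^[(pair x y).length] (([] : List Bool), pair x y)).2.tail.tail) = (x, y)
    rw [h4]
    simp

theorem PT_pair : PT (fun p : List Bool × List Bool => pair p.1 p.2) := by
  unfold pair
  fun_prop

end Vale.Agent.P337
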