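import Mathlib
import Vale.Agent.Lib.P337.Fin.PolyTime
import Vale.Agent.Lib.P337.Cx.ClassA
import Vale.Agent.Lib.P337.Cx.Size

/-!
P337: the typed levels are contained in the levels of the counting hierarchy.
-/

namespace Vale.Agent.P337

open Vale.Agent.Lib.Common.PolyTime

/-- size of a bit list -/
theorem level_sz_bits_le (w : List Bool) : sz w ≤ 4 * w.length + 1 := by
  induction w with
  | nil => simp [sz_nil]
  | cons b w ih =>
    have h := sz_bool_le b
    rw [sz_cons, List.length_cons]
    omega

/-- a polynomial bound for a polynomial time number, in terms of the length of the word -/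
theorem level_exists_bound {l : List Bool → ℕ} (hl : PT l) :
    ∃ m : Polynomial ℕ, ∀ w, l w ≤ m.eval w.length := by
  obtain ⟨p, hp⟩ := hl.size_le
  refine ⟨p.comp (4 * Polynomial.X + 1), fun w => ?_⟩
  have h1 : l w ≤ sz (l w) := by
    rw [sz_nat]
    omega
  have h2 : sz (l w) ≤ p.eval (sz w) := hp w
  have h3 : p.eval (sz w) ≤ p.eval (4 * w.length + 1) := poly_mono p (level_sz_bits_le w)
  have h4 : (p.comp (4 * Polynomial.X + 1)).eval w.length = p.eval (4 * w.length + 1) := by
    simp
  rw [h4]
  exact h1.trans (h2.trans h3)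

/-- the oracle machine which asks one question: its own input -/
def levelDelta (u : List Bool → List Bool × List Bool) (v : List Bool) : List Bool :=
  List.casesOn (motive := fun _ => List Bool) (u v).2 (true :: (u v).1) (fun b _ => [false, b])

theorem level_PT_delta {u : List Bool → List Bool × List Bool} (hu : PT u) :
    PT (levelDelta u) := by
  unfold levelDelta
  exact PT.listCases (g := fun _ b _ => [false, b]) (PT.snd hu)
    (PT.cons (PT.const true) (PT.fst hu))
    (PT.cons (PT.const false) (PT.cons (PT.fst (PT.snd PT.id)) (PT.const [])))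

theorem level_accepts {u : List Bool → List Bool × List Bool}
    (hu : ∀ x y, u (pair x y) = (x, y)) (O : Lang) (w : List Bool) :
    Accepts O (levelDelta u) w 2 [] ↔ w ∈ O := by
  have h0 : levelDelta u (pair w []) = true :: w := by
    unfold levelDelta
    rw [hu]
  have h1 : ∀ b, levelDelta u (pair w [b]) = [false, b] := by
    intro b
    unfold levelDelta
    rw [hu]
  have hT : Accepts O (levelDelta u) w 1 [true] := by
    unfold Accepts
    exact Or.inr (h1 true)
  have hF : ¬ Accepts O (levelDelta u) w 1 [false] := by
    unfold Accepts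
    rintro (⟨q, hq, -⟩ | hq)
    · rw [h1] at hq
      simp at hq
    · rw [h1] at hq
      simp at hq
  constructor
  · intro h
    unfold Accepts at h
    rcases h with ⟨q, hq, h⟩ | hq
    · rw [h0] at hq
      have hq' : w = q := by
        have := List.tail_eq_of_cons_eq hq
        exact this
      subst hq'
      rcases h with ⟨h, -⟩ | ⟨-, h⟩
      · exact h
      · exact absurd h hF
    · rw [h0] at hq
      simp at hq
  · intro h
    unfold Accepts
    exact Or.inl ⟨w, h0, Or.inl ⟨h, hT⟩⟩

/-- the typed levels, for languages, are contained in the levels defined by oracle machines -/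
theorem mem_CHlevel_of_InC (j : ℕ) : ∀ A : List Bool → Prop, InC j A →
    {w : List Bool | A w} ∈ CHlevel j := by
  induction j with
  | zero =>
    rintro A ⟨f, hf, hA⟩
    refine ⟨fun w => [f w], polyTime_of_PT (PT.cons hf (PT.const [])), fun w => ?_⟩
    rw [Set.mem_ofPred_eq, hA w]
    simp
  | succ j ih =>
    rintro A ⟨l, B, hl, hB, hA⟩
    obtain ⟨u, hu, hu'⟩ := exists_unpair
    obtain ⟨m, hm⟩ := level_exists_bound hl
    -- the oracle
    have hf : PT (fun v : List Bool => ((u v).1, (u v).2.take (l (u v).1))) :=
      PT.pair (PT.fst hu) (PT.take (PT.snd hu) (PT.comp hl (PT.fst hu)))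
    have hO := ih _ (hB.pre hf)
    refine ⟨_, hO, levelDelta u, Polynomial.C 2, m, polyTime_of_PT (level_PT_delta hu),
      fun x => ?_⟩
    rw [Set.mem_ofPred_eq, hA x]
    obtain ⟨d, hd⟩ := Nat.exists_eq_add_of_le (hm x)
    have h1 : Nat.card {y : List Bool // y.length = m.eval x.length ∧
        Accepts {w : List Bool | B ((u w).1, (u w).2.take (l (u w).1))} (levelDelta u) (pair x y)
          ((Polynomial.C 2).eval x.length) []} =
        cnt (m.eval x.length) (fun y => B (x, y.take (l x))) := by
      unfold cnt
      congr 1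
      congr 1
      funext y
      rw [Polynomial.eval_C, level_accepts hu', Set.mem_ofPred_eq, hu']
    rw [h1, hd, cnt_take (l x) d (fun y => B (x, y)), pow_add]
    have h2 : (0 : ℕ) < 2 ^ d := by positivity
    constructor
    · intro h
      calc 2 ^ l x * 2 ^ d < (2 * cnt (l x) fun y => B (x, y)) * 2 ^ d :=
            Nat.mul_lt_mul_of_pos_right h h2
        _ = 2 * (2 ^ d * cnt (l x) fun y => B (x, y)) := by ring
    · intro h
      have h3 : 2 ^ l x * 2 ^ d < (2 * cnt (l x) fun y => B (x, y)) * 2 ^ d := by
        calc 2 ^ l x * 2 ^ d < 2 * (2 ^ d * cnt (l x) fun y => B (x, y)) := h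
          _ = (2 * cnt (l x) fun y => B (x, y)) * 2 ^ d := by ring
      exact Nat.lt_of_mul_lt_mul_right h3

end Vale.Agent.P337
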